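import Vale.Agent.Lib.P331.Assembly

/-!
P331: a one-sample online rule for every finite matroid that is
`1 / (⌈log₂ k⌉ + 10)`-competitive against the almighty adversary, `k` the rank.

Let `M` be a matroid on a finite type `E` and `k` a bound for the size of its independent sets
(for instance its rank).  There are a finite seed type `R` (the seed is uniform on `R`) and an
online rule such that the accepted set is independent for all samples, values, seeds and
arrival sequences, and such that for all laws with finite support of the elements (atoms `Ω`,
probabilities `p e`, values `val e ≥ 0`), every adversary `adv` that chooses the arrival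
sequence as a function of the realised samples, values and seed (every element arrives), and
every choice `I` of an independent set as a function of the realised values (for instance a
set of maximum weight), the expected weight of `I` is at most `⌈log₂ k⌉ + 10` times the
expected weight of the accepted set.

The rule draws one of `⌈log₂ k⌉ + 10` modes and accepts an arriving element if its value
passes a threshold computed from the largest sample `T` of a non-loop (strictly above `T`,
at least `T`, or at least `T / 2 ^ j`) and the accepted set stays independent.  For every
arrival sequence the accepted set is a maximal independent subset of a level set of the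
values, which is why the order does not matter; the sample scale `T` is handled by swapping
the sample and the value of one element.
-/

namespace Vale.Agent.Results.P331.LogRankAlmighty

open Finset Vale.Agent.Lib.P331

theorem result (E : Type) [Fintype E] [DecidableEq E] (M : Matroid E) (k : ℕ)
    (hk : ∀ I : Finset E, M.Indep (I : Set E) → I.card ≤ k) :
    ∃ (R : Type) (_ : Fintype R) (_ : Nonempty R) (rule : OnlineRule E R),
      (∀ (S V : E → ℝ) (r : R) (l : List E), M.Indep (rule.run S r V l : Set E)) ∧
      ∀ (Ω : Type) [Fintype Ω] (p val : E → Ω → ℝ),
        (∀ e ω, 0 ≤ p e ω) → (∀ e, ∑ ω, p e ω = 1) → (∀ e ω, 0 ≤ val e ω) →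
        ∀ adv : (E → Ω) → (E → Ω) → R → List E, (∀ s v r e, e ∈ adv s v r) →
        ∀ I : (E → Ω) → Finset E, (∀ v, M.Indep (I v : Set E)) →
          ∑ v : E → Ω, (∏ e, p e (v e)) * ∑ e ∈ I v, val e (v e)
            ≤ ((Nat.clog 2 k : ℝ) + 10) *
              ∑ s : E → Ω, ∑ v : E → Ω, ∑ r : R,
                (∏ e, p e (s e)) * (∏ e, p e (v e)) * (1 / (Fintype.card R : ℝ)) *
                  ∑ e ∈ rule.run (fun e => val e (s e)) r (fun e => val e (v e)) (adv s v r),
                    val e (v e) :=
  ⟨Fin (Nat.clog 2 k + 10), inferInstance, ⟨0⟩, thrRule M (Nat.clog 2 k),
    fun S V r l => helper20_thrRule_indep M _ S V r l,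
    fun Ω _ p val hp hp1 hval adv hadv I hI =>
      thrRule_guarantee M k _ (Nat.le_pow_clog (by norm_num) k) hk p val hp hp1 hval adv hadv
        I hI⟩

end Vale.Agent.Results.P331.LogRankAlmighty
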