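import Vale.Agent.Lib.P331.helper67.General

/-!
P331: the one-sample threshold rule is `1 / (⌈log₂ k⌉ + 10)`-competitive against the almighty
adversary for ALL laws of the elements (arbitrary Borel probability measures on `[0, ∞)`),
`k` the rank of the matroid.

Let `M` be a matroid on a finite type `E` and `k` a bound for the size of its independent sets
(for instance its rank).  There are a finite seed type `R` (the seed is uniform on `R`) and an
online rule such that the accepted set is independent for all samples, values, seeds and
arrival sequences, and such that for all probability measures `μ e` on the nonnegative reals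
(the law of the element `e`; the sample vector and the value vector are independent, each with
the product law `Measure.pi μ`) and every adversary `adv` that chooses the arrival sequence as
a function of the realised samples, values and seed (every element arrives), the expectation
of the maximum weight of an independent set is at most `⌈log₂ k⌉ + 10` times the expected
weight of the accepted set.

Expectations are integrals of functions with values in `[0, ∞]` (`lintegral`), so no moment
assumption is needed: if the expected optimum is infinite, so is the expected weight of the
accepted set.  The adversary is an arbitrary function; if it is not measurable, the integral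
on the right is the lower integral (the supremum of the integrals of the measurable functions
below the integrand), which only makes the inequality stronger.

The rule is the rule `thrRule` of the hand-in `LogRankAlmighty` (which treats laws with finite
support): it draws one of `⌈log₂ k⌉ + 10` modes and accepts an arriving element if its value
passes a threshold computed from the largest sample `T` of a non-loop (strictly above `T`,
at least `T`, or at least `T / 2 ^ j`) and the accepted set stays independent.
-/

namespace Vale.Agent.Results.P331.LogRankAlmightyAllLaws

open Finset MeasureTheory Vale.Agent.Lib.P331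

open scoped ENNReal NNReal

theorem result (E : Type) [Fintype E] [DecidableEq E] (M : Matroid E) (k : ℕ)
    (hk : ∀ I : Finset E, M.Indep (I : Set E) → I.card ≤ k) :
    ∃ (R : Type) (_ : Fintype R) (_ : Nonempty R) (rule : OnlineRule E R),
      (∀ (S V : E → ℝ) (r : R) (l : List E), M.Indep (rule.run S r V l : Set E)) ∧
      ∀ (μ : E → Measure ℝ≥0) [∀ e, IsProbabilityMeasure (μ e)]
        (adv : (E → ℝ≥0) → (E → ℝ≥0) → R → List E), (∀ s v r e, e ∈ adv s v r) →
        ∫⁻ v, (⨆ I : {I : Finset E // M.Indep (I : Set E)},
            ENNReal.ofReal (∑ e ∈ I.1, (v e : ℝ))) ∂(Measure.pi μ)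
          ≤ ((Nat.clog 2 k : ℝ≥0∞) + 10) *
            ∫⁻ p, (∑ r : R, ENNReal.ofReal
                (∑ e ∈ rule.run (fun e => (p.1 e : ℝ)) r (fun e => (p.2 e : ℝ))
                  (adv p.1 p.2 r), (p.2 e : ℝ))) / (Fintype.card R : ℝ≥0∞)
              ∂((Measure.pi μ).prod (Measure.pi μ)) := by
  refine ⟨Fin (Nat.clog 2 k + 10), inferInstance, ⟨0⟩, thrRule M (Nat.clog 2 k),
    fun S V r l => helper20_thrRule_indep M _ S V r l, ?_⟩
  intro μ _ adv hadv
  have h := h67_guarantee M k (Nat.clog 2 k) (Nat.le_pow_clog (by norm_num) k) hk μ adv hadv
  have hc : (Fintype.card (Fin (Nat.clog 2 k + 10)) : ℝ≥0∞) = (Nat.clog 2 k : ℝ≥0∞) + 10 := by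
    rw [Fintype.card_fin]
    push_cast
    rfl
  rw [hc]
  have hc0 : (Nat.clog 2 k : ℝ≥0∞) + 10 ≠ 0 := by
    have : (0 : ℝ≥0∞) < (Nat.clog 2 k : ℝ≥0∞) + 10 :=
      lt_of_lt_of_le (by norm_num) le_add_self
    exact this.ne'
  have hct : (Nat.clog 2 k : ℝ≥0∞) + 10 ≠ ⊤ := by
    simp
  simp only [div_eq_mul_inv]
  rw [lintegral_mul_const' _ _ (ENNReal.inv_ne_top.mpr hc0)]
  rw [mul_comm, mul_assoc, ENNReal.inv_mul_cancel hc0 hct, mul_one]
  exact h

end Vale.Agent.Results.P331.LogRankAlmightyAllLaws
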