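import Vale.Agent.Lib.P331.helper67.General
import Vale.Agent.Lib.P331.helper67.GenRun

/-!
P331: the one-sample threshold rule is `1 / (⌈log₂ k⌉ + 10)`-competitive against the almighty
adversary for ALL laws of the elements (arbitrary Borel probability measures on `[0, ∞)`),
`k` the rank of the matroid; with the measurability statements that make the integrals below
the usual expectations.

Let `M` be a matroid on a finite type `E` and `k` a bound for the size of its independent sets
(for instance its rank).  There are a finite seed type `R` (the seed is uniform on `R`) and an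
online rule such that

* the accepted set is independent for all samples, values, seeds and arrival sequences;
* the rule is a measurable procedure: for every seed, arrival sequence and element, the set of
  pairs (sample vector, value vector) for which the element is accepted is measurable;
* for all probability measures `μ e` on the nonnegative reals (the law of the element `e`; the
  sample vector and the value vector are independent, each with the product law
  `Measure.pi μ`) and every adversary `adv` that chooses the arrival sequence as a function of
  the realised samples, values and seed (every element arrives), the expectation of the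
  maximum weight of an independent set is at most `⌈log₂ k⌉ + 10` times the expected weight
  of the accepted set; and if the choice of the adversary is measurable (for every seed and
  every sequence, the set of pairs at which this sequence is chosen is measurable), then the
  integrand on the right is a measurable function, so that integral is the expected weight of
  the accepted set in the usual sense.

Expectations are integrals of functions with values in `[0, ∞]` (`lintegral`), so no moment
assumption is needed.  For an adversary that is not measurable the integral on the right is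
the lower integral, which only makes the inequality stronger.

The rule is the rule `thrRule` of the hand-in `LogRankAlmighty` (which treats laws with finite
support); the hand-in `LogRankAlmightyAllLaws` is this statement without the two
measurability parts.
-/

namespace Vale.Agent.Results.P331.LogRankAlmightyAllLawsMeas

open Finset MeasureTheory Vale.Agent.Lib.P331

open scoped ENNReal NNReal

theorem result (E : Type) [Fintype E] [DecidableEq E] (M : Matroid E) (k : ℕ)
    (hk : ∀ I : Finset E, M.Indep (I : Set E) → I.card ≤ k) :
    ∃ (R : Type) (_ : Fintype R) (_ : Nonempty R) (rule : OnlineRule E R),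
      (∀ (S V : E → ℝ) (r : R) (l : List E), M.Indep (rule.run S r V l : Set E)) ∧
      (∀ (r : R) (l : List E) (e : E), MeasurableSet {p : (E → ℝ≥0) × (E → ℝ≥0) |
        e ∈ rule.run (fun x => (p.1 x : ℝ)) r (fun x => (p.2 x : ℝ)) l}) ∧
      ∀ (μ : E → Measure ℝ≥0) [∀ e, IsProbabilityMeasure (μ e)]
        (adv : (E → ℝ≥0) → (E → ℝ≥0) → R → List E), (∀ s v r e, e ∈ adv s v r) →
        ∫⁻ v, (⨆ I : {I : Finset E // M.Indep (I : Set E)},
            ENNReal.ofReal (∑ e ∈ I.1, (v e : ℝ))) ∂(Measure.pi μ)
          ≤ ((Nat.clog 2 k : ℝ≥0∞) + 10) *
            ∫⁻ p, (∑ r : R, ENNReal.ofReal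
                (∑ e ∈ rule.run (fun e => (p.1 e : ℝ)) r (fun e => (p.2 e : ℝ))
                  (adv p.1 p.2 r), (p.2 e : ℝ))) / (Fintype.card R : ℝ≥0∞)
              ∂((Measure.pi μ).prod (Measure.pi μ))
        ∧ ((∀ (r : R) (l : List E),
              MeasurableSet {p : (E → ℝ≥0) × (E → ℝ≥0) | adv p.1 p.2 r = l}) →
            Measurable (fun p : (E → ℝ≥0) × (E → ℝ≥0) => (∑ r : R, ENNReal.ofReal
                (∑ e ∈ rule.run (fun e => (p.1 e : ℝ)) r (fun e => (p.2 e : ℝ))
                  (adv p.1 p.2 r), (p.2 e : ℝ))) / (Fintype.card R : ℝ≥0∞))) := by
  refine ⟨Fin (Nat.clog 2 k + 10), inferInstance, ⟨0⟩, thrRule M (Nat.clog 2 k),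
    fun S V r l => helper20_thrRule_indep M _ S V r l,
    fun r l e => h67_run_meas M _ r l e, ?_⟩
  intro μ _ adv hadv
  refine ⟨?_, fun hm => (h67_gain_meas M _ adv hm).div_const _⟩
  have h := h67_guarantee M k (Nat.clog 2 k) (Nat.le_pow_clog (by norm_num) k) hk μ adv hadv
  have hc : (Fintype.card (Fin (Nat.clog 2 k + 10)) : ℝ≥0∞) = (Nat.clog 2 k : ℝ≥0∞) + 10 := by
    rw [Fintype.card_fin]
    push_cast
    rfl
  rw [hc]
  have hc0 : (Nat.clog 2 k : ℝ≥0∞) + 10 ≠ 0 := by
    have : (0 : ℝ≥0∞) < (Nat.clog 2 k : ℝ≥0∞) + 10 :=
      lt_of_lt_of_le (by norm_num) le_add_self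
    exact this.ne'
  have hct : (Nat.clog 2 k : ℝ≥0∞) + 10 ≠ ⊤ := by
    simp
  simp only [div_eq_mul_inv]
  rw [lintegral_mul_const' _ _ (ENNReal.inv_ne_top.mpr hc0)]
  rw [mul_comm, mul_assoc, ENNReal.inv_mul_cancel hc0 hct, mul_one]
  exact h

end Vale.Agent.Results.P331.LogRankAlmightyAllLawsMeas
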