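import Vale.Agent.Lib.P331.helper87.Uniform
import Vale.Agent.Lib.P331.helper87.Graphic
import Vale.Agent.Lib.P331.helper20.Sparse

/-!
P331: one-sample rules with a constant loss against the almighty adversary for matroids that
are covered by partition matroids, for uniform matroids, for graphic matroids and for
matroids of matrices with sparse columns.

First part.  Let `M` be a matroid on a finite type `E`.  Suppose there is a finite nonempty
family, indexed by `ρ : P`, of partitions of parts of `E` into blocks (the element `e` lies in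
the block `blk ρ e : Option B`, `none` meaning that `e` lies in no block of `ρ`) such that
(1) for every `ρ`, every set that avoids the elements outside all blocks and has at most one
element in each block is independent in `M`, and
(2) for all nonnegative weights `v` and every independent set `I` there are such sets `T ρ`
(one for each `ρ`) with `w(I) ≤ α * (average over ρ of w(T ρ))`.
Then there are a finite seed type `R` (the seed is uniform on `R`) and an online rule such that
the accepted set is independent for all samples, values, seeds and arrival sequences, and such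
that for all laws with finite support of the elements (atoms `Ω`, probabilities `p e`, values
`val e ≥ 0`), every adversary `adv` that chooses the arrival sequence as a function of the
realised samples, values and seed (every element arrives), and every choice `I` of an
independent set as a function of the realised values (for instance a set of maximum weight),
the expected weight of `I` is at most `10 * α` times the expected weight of the accepted set.

Second part.  For every `k ≥ 1` the uniform matroid of rank `k` on a finite type `E` (the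
independent sets are the sets with at most `k` elements) has such a rule with the constant
`20`.

Third part.  The cycle matroid of every finite multigraph has such a rule with the constant
`20`.  The multigraph has the vertex type `V`, the edge type `E` and the endpoint maps
`src tgt : E → V`; its cycle matroid is described by its independent sets: the sets of edges
each of whose nonempty subsets has a leaf, that is a vertex which is an endpoint of exactly
one edge of the subset, this edge not being a loop (these are the forests: a nonempty forest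
has a leaf, and a cycle, two parallel edges or a loop have none).  Here the two partitions
are the partition of the edges that are not loops by their higher endpoint and the one by
their lower endpoint, for a linear order of the vertices.

Fourth part.  Let `c e : Fin m → F` (`e` in `E`) be the columns of a matrix with `m` rows over
a field `F`, every column with at most `s` nonzero entries, and let `M` be the matroid of the
columns (a set of elements is independent exactly when its columns are linearly independent).
Then `M` has such a rule with the constant `10 * s`.  (For `s = 2` this contains the graphic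
matroids, by the incidence matrix.)  Here the partitions are indexed by the permutations `σ`
of the rows, and the block of a column is the row of its support that `σ` sends lowest.

The rule draws `ρ` and a mode, and runs in every block of `ρ` the threshold rule of the
matroid of rank one on that block: the threshold is the largest sample in the block, and the
rule accepts the first element of the block whose value passes the threshold (strictly or
weakly, depending on the mode).
-/

namespace Vale.Agent.Results.P331.PartitionPropertyAlmighty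

open Finset Vale.Agent.Lib.P331

theorem covered (E : Type) [Fintype E] [DecidableEq E] (M : Matroid E)
    (P B : Type) [Fintype P] [Nonempty P] [Fintype B] (blk : P → E → Option B) (α : ℝ)
    (hα : 0 ≤ α)
    (hindep : ∀ (ρ : P) (T : Finset E), (∀ e ∈ T, blk ρ e ≠ none) →
      (∀ e ∈ T, ∀ e' ∈ T, blk ρ e = blk ρ e' → e = e') → M.Indep (T : Set E))
    (hcover : ∀ v : E → ℝ, (∀ e, 0 ≤ v e) → ∀ I : Finset E, M.Indep (I : Set E) →
      ∃ T : P → Finset E, (∀ ρ, ∀ e ∈ T ρ, blk ρ e ≠ none) ∧
        (∀ ρ, ∀ e ∈ T ρ, ∀ e' ∈ T ρ, blk ρ e = blk ρ e' → e = e') ∧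
        ∑ e ∈ I, v e ≤ α * ((1 / (Fintype.card P : ℝ)) * ∑ ρ, ∑ e ∈ T ρ, v e)) :
    ∃ (R : Type) (_ : Fintype R) (_ : Nonempty R) (rule : OnlineRule E R),
      (∀ (S V : E → ℝ) (r : R) (l : List E), M.Indep (rule.run S r V l : Set E)) ∧
      ∀ (Ω : Type) [Fintype Ω] (p val : E → Ω → ℝ),
        (∀ e ω, 0 ≤ p e ω) → (∀ e, ∑ ω, p e ω = 1) → (∀ e ω, 0 ≤ val e ω) →
        ∀ adv : (E → Ω) → (E → Ω) → R → List E, (∀ s v r e, e ∈ adv s v r) →
        ∀ I : (E → Ω) → Finset E, (∀ v, M.Indep (I v : Set E)) →
          ∑ v : E → Ω, (∏ e, p e (v e)) * ∑ e ∈ I v, val e (v e)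
            ≤ (10 * α) *
              ∑ s : E → Ω, ∑ v : E → Ω, ∑ r : R,
                (∏ e, p e (s e)) * (∏ e, p e (v e)) * (1 / (Fintype.card R : ℝ)) *
                  ∑ e ∈ rule.run (fun e => val e (s e)) r (fun e => val e (v e)) (adv s v r),
                    val e (v e) :=
  ⟨P × Fin (0 + 10), inferInstance, ⟨(Classical.arbitrary P, ⟨0, by norm_num⟩)⟩, partRule blk,
    fun S V r l => hindep r.1 _ (partRule_run_transversal blk S V r l).1
      (partRule_run_transversal blk S V r l).2,
    fun Ω _ p val hp hp1 hval adv hadv I hI =>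
      partRule_guarantee blk M α hα hcover p val hp hp1 hval adv hadv I hI⟩

theorem uniform (E : Type) [Fintype E] [DecidableEq E] (M : Matroid E) (k : ℕ) (hk : 1 ≤ k)
    (hM : ∀ I : Finset E, M.Indep (I : Set E) ↔ I.card ≤ k) :
    ∃ (R : Type) (_ : Fintype R) (_ : Nonempty R) (rule : OnlineRule E R),
      (∀ (S V : E → ℝ) (r : R) (l : List E), M.Indep (rule.run S r V l : Set E)) ∧
      ∀ (Ω : Type) [Fintype Ω] (p val : E → Ω → ℝ),
        (∀ e ω, 0 ≤ p e ω) → (∀ e, ∑ ω, p e ω = 1) → (∀ e ω, 0 ≤ val e ω) →
        ∀ adv : (E → Ω) → (E → Ω) → R → List E, (∀ s v r e, e ∈ adv s v r) →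
        ∀ I : (E → Ω) → Finset E, (∀ v, M.Indep (I v : Set E)) →
          ∑ v : E → Ω, (∏ e, p e (v e)) * ∑ e ∈ I v, val e (v e)
            ≤ 20 *
              ∑ s : E → Ω, ∑ v : E → Ω, ∑ r : R,
                (∏ e, p e (s e)) * (∏ e, p e (v e)) * (1 / (Fintype.card R : ℝ)) *
                  ∑ e ∈ rule.run (fun e => val e (s e)) r (fun e => val e (v e)) (adv s v r),
                    val e (v e) := by
  have hne : Nonempty (E → Fin k) := ⟨fun _ => ⟨0, hk⟩⟩
  have h := covered E M (E → Fin k) (Fin k) (fun ρ e => some (ρ e)) 2 (by norm_num)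
    (by
      intro ρ T _ hT
      rw [hM]
      have h1 : T.card ≤ (Finset.univ : Finset (Fin k)).card :=
        Finset.card_le_card_of_injOn ρ (fun e _ => Finset.mem_univ _)
          (fun e he e' he' hee => hT e he e' he' (by rw [hee]))
      simpa using h1)
    (by
      intro v hv I hI
      obtain ⟨T, hT, hineq⟩ := unif_cover k hk v hv I ((hM I).mp hI)
      exact ⟨T, fun ρ e _ => by simp,
        fun ρ e he e' he' hee => hT ρ e he e' he' (Option.some.inj hee), hineq⟩)
  have h20 : (10 : ℝ) * 2 = 20 := by norm_num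
  rw [h20] at h
  exact h

theorem graphic (E V : Type) [Fintype E] [DecidableEq E] [Fintype V] (src tgt : E → V)
    (M : Matroid E)
    (hM : ∀ I : Finset E, M.Indep (I : Set E) ↔
      ∀ T : Finset E, T ⊆ I → T.Nonempty →
        ∃ x : V, ∃ e ∈ T, src e ≠ tgt e ∧ (src e = x ∨ tgt e = x) ∧
          ∀ e' ∈ T, (src e' = x ∨ tgt e' = x) → e' = e) :
    ∃ (R : Type) (_ : Fintype R) (_ : Nonempty R) (rule : OnlineRule E R),
      (∀ (S V : E → ℝ) (r : R) (l : List E), M.Indep (rule.run S r V l : Set E)) ∧
      ∀ (Ω : Type) [Fintype Ω] (p val : E → Ω → ℝ),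
        (∀ e ω, 0 ≤ p e ω) → (∀ e, ∑ ω, p e ω = 1) → (∀ e ω, 0 ≤ val e ω) →
        ∀ adv : (E → Ω) → (E → Ω) → R → List E, (∀ s v r e, e ∈ adv s v r) →
        ∀ I : (E → Ω) → Finset E, (∀ v, M.Indep (I v : Set E)) →
          ∑ v : E → Ω, (∏ e, p e (v e)) * ∑ e ∈ I v, val e (v e)
            ≤ 20 *
              ∑ s : E → Ω, ∑ v : E → Ω, ∑ r : R,
                (∏ e, p e (s e)) * (∏ e, p e (v e)) * (1 / (Fintype.card R : ℝ)) *
                  ∑ e ∈ rule.run (fun e => val e (s e)) r (fun e => val e (v e)) (adv s v r),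
                    val e (v e) := by
  obtain ⟨blk, h1, h2⟩ := graphic_partition src tgt M hM
  have h := covered E M Bool V blk 2 (by norm_num) h1 h2
  have h20 : (10 : ℝ) * 2 = 20 := by norm_num
  rw [h20] at h
  exact h

theorem sparse (E : Type) [Fintype E] [DecidableEq E] (F : Type) [Field F] (m : ℕ)
    (c : E → Fin m → F) (s : ℕ) (M : Matroid E)
    (hs : ∀ e, ∃ D : Finset (Fin m), D.card ≤ s ∧ ∀ r, c e r ≠ 0 → r ∈ D)
    (hM : ∀ I : Finset E, M.Indep (I : Set E) ↔ LinearIndependent F (fun e : I => c e)) :
    ∃ (R : Type) (_ : Fintype R) (_ : Nonempty R) (rule : OnlineRule E R),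
      (∀ (S V : E → ℝ) (r : R) (l : List E), M.Indep (rule.run S r V l : Set E)) ∧
      ∀ (Ω : Type) [Fintype Ω] (p val : E → Ω → ℝ),
        (∀ e ω, 0 ≤ p e ω) → (∀ e, ∑ ω, p e ω = 1) → (∀ e ω, 0 ≤ val e ω) →
        ∀ adv : (E → Ω) → (E → Ω) → R → List E, (∀ s v r e, e ∈ adv s v r) →
        ∀ I : (E → Ω) → Finset E, (∀ v, M.Indep (I v : Set E)) →
          ∑ v : E → Ω, (∏ e, p e (v e)) * ∑ e ∈ I v, val e (v e)
            ≤ (10 * (s : ℝ)) *
              ∑ s : E → Ω, ∑ v : E → Ω, ∑ r : R,
                (∏ e, p e (s e)) * (∏ e, p e (v e)) * (1 / (Fintype.card R : ℝ)) *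
                  ∑ e ∈ rule.run (fun e => val e (s e)) r (fun e => val e (v e)) (adv s v r),
                    val e (v e) := by
  obtain ⟨blk, h1, h2⟩ := Sparse.sparse_partition c s hs M hM
  exact covered E M (Equiv.Perm (Fin m)) (Fin m) blk (s : ℝ) (Nat.cast_nonneg s) h1 h2

theorem result :
    (∀ (E : Type) [Fintype E] [DecidableEq E] (M : Matroid E)
      (P B : Type) [Fintype P] [Nonempty P] [Fintype B] (blk : P → E → Option B) (α : ℝ),
      0 ≤ α →
      (∀ (ρ : P) (T : Finset E), (∀ e ∈ T, blk ρ e ≠ none) →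
        (∀ e ∈ T, ∀ e' ∈ T, blk ρ e = blk ρ e' → e = e') → M.Indep (T : Set E)) →
      (∀ v : E → ℝ, (∀ e, 0 ≤ v e) → ∀ I : Finset E, M.Indep (I : Set E) →
        ∃ T : P → Finset E, (∀ ρ, ∀ e ∈ T ρ, blk ρ e ≠ none) ∧
          (∀ ρ, ∀ e ∈ T ρ, ∀ e' ∈ T ρ, blk ρ e = blk ρ e' → e = e') ∧
          ∑ e ∈ I, v e ≤ α * ((1 / (Fintype.card P : ℝ)) * ∑ ρ, ∑ e ∈ T ρ, v e)) →
      ∃ (R : Type) (_ : Fintype R) (_ : Nonempty R) (rule : OnlineRule E R),
        (∀ (S V : E → ℝ) (r : R) (l : List E), M.Indep (rule.run S r V l : Set E)) ∧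
        ∀ (Ω : Type) [Fintype Ω] (p val : E → Ω → ℝ),
          (∀ e ω, 0 ≤ p e ω) → (∀ e, ∑ ω, p e ω = 1) → (∀ e ω, 0 ≤ val e ω) →
          ∀ adv : (E → Ω) → (E → Ω) → R → List E, (∀ s v r e, e ∈ adv s v r) →
          ∀ I : (E → Ω) → Finset E, (∀ v, M.Indep (I v : Set E)) →
            ∑ v : E → Ω, (∏ e, p e (v e)) * ∑ e ∈ I v, val e (v e)
              ≤ (10 * α) *
                ∑ s : E → Ω, ∑ v : E → Ω, ∑ r : R,
                  (∏ e, p e (s e)) * (∏ e, p e (v e)) * (1 / (Fintype.card R : ℝ)) *
                    ∑ e ∈ rule.run (fun e => val e (s e)) r (fun e => val e (v e))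
                      (adv s v r), val e (v e)) ∧
    (∀ (E : Type) [Fintype E] [DecidableEq E] (M : Matroid E) (k : ℕ), 1 ≤ k →
      (∀ I : Finset E, M.Indep (I : Set E) ↔ I.card ≤ k) →
      ∃ (R : Type) (_ : Fintype R) (_ : Nonempty R) (rule : OnlineRule E R),
        (∀ (S V : E → ℝ) (r : R) (l : List E), M.Indep (rule.run S r V l : Set E)) ∧
        ∀ (Ω : Type) [Fintype Ω] (p val : E → Ω → ℝ),
          (∀ e ω, 0 ≤ p e ω) → (∀ e, ∑ ω, p e ω = 1) → (∀ e ω, 0 ≤ val e ω) →
          ∀ adv : (E → Ω) → (E → Ω) → R → List E, (∀ s v r e, e ∈ adv s v r) →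
          ∀ I : (E → Ω) → Finset E, (∀ v, M.Indep (I v : Set E)) →
            ∑ v : E → Ω, (∏ e, p e (v e)) * ∑ e ∈ I v, val e (v e)
              ≤ 20 *
                ∑ s : E → Ω, ∑ v : E → Ω, ∑ r : R,
                  (∏ e, p e (s e)) * (∏ e, p e (v e)) * (1 / (Fintype.card R : ℝ)) *
                    ∑ e ∈ rule.run (fun e => val e (s e)) r (fun e => val e (v e))
                      (adv s v r), val e (v e)) ∧
    (∀ (E V : Type) [Fintype E] [DecidableEq E] [Fintype V] (src tgt : E → V)
      (M : Matroid E),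
      (∀ I : Finset E, M.Indep (I : Set E) ↔
        ∀ T : Finset E, T ⊆ I → T.Nonempty →
          ∃ x : V, ∃ e ∈ T, src e ≠ tgt e ∧ (src e = x ∨ tgt e = x) ∧
            ∀ e' ∈ T, (src e' = x ∨ tgt e' = x) → e' = e) →
      ∃ (R : Type) (_ : Fintype R) (_ : Nonempty R) (rule : OnlineRule E R),
        (∀ (S V : E → ℝ) (r : R) (l : List E), M.Indep (rule.run S r V l : Set E)) ∧
        ∀ (Ω : Type) [Fintype Ω] (p val : E → Ω → ℝ),
          (∀ e ω, 0 ≤ p e ω) → (∀ e, ∑ ω, p e ω = 1) → (∀ e ω, 0 ≤ val e ω) →
          ∀ adv : (E → Ω) → (E → Ω) → R → List E, (∀ s v r e, e ∈ adv s v r) →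
          ∀ I : (E → Ω) → Finset E, (∀ v, M.Indep (I v : Set E)) →
            ∑ v : E → Ω, (∏ e, p e (v e)) * ∑ e ∈ I v, val e (v e)
              ≤ 20 *
                ∑ s : E → Ω, ∑ v : E → Ω, ∑ r : R,
                  (∏ e, p e (s e)) * (∏ e, p e (v e)) * (1 / (Fintype.card R : ℝ)) *
                    ∑ e ∈ rule.run (fun e => val e (s e)) r (fun e => val e (v e))
                      (adv s v r), val e (v e)) ∧
    (∀ (E : Type) [Fintype E] [DecidableEq E] (F : Type) [Field F] (m : ℕ)
      (c : E → Fin m → F) (s : ℕ) (M : Matroid E),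
      (∀ e, ∃ D : Finset (Fin m), D.card ≤ s ∧ ∀ r, c e r ≠ 0 → r ∈ D) →
      (∀ I : Finset E, M.Indep (I : Set E) ↔ LinearIndependent F (fun e : I => c e)) →
      ∃ (R : Type) (_ : Fintype R) (_ : Nonempty R) (rule : OnlineRule E R),
        (∀ (S V : E → ℝ) (r : R) (l : List E), M.Indep (rule.run S r V l : Set E)) ∧
        ∀ (Ω : Type) [Fintype Ω] (p val : E → Ω → ℝ),
          (∀ e ω, 0 ≤ p e ω) → (∀ e, ∑ ω, p e ω = 1) → (∀ e ω, 0 ≤ val e ω) →
          ∀ adv : (E → Ω) → (E → Ω) → R → List E, (∀ s v r e, e ∈ adv s v r) →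
          ∀ I : (E → Ω) → Finset E, (∀ v, M.Indep (I v : Set E)) →
            ∑ v : E → Ω, (∏ e, p e (v e)) * ∑ e ∈ I v, val e (v e)
              ≤ (10 * (s : ℝ)) *
                ∑ s : E → Ω, ∑ v : E → Ω, ∑ r : R,
                  (∏ e, p e (s e)) * (∏ e, p e (v e)) * (1 / (Fintype.card R : ℝ)) *
                    ∑ e ∈ rule.run (fun e => val e (s e)) r (fun e => val e (v e))
                      (adv s v r), val e (v e)) :=
  ⟨fun E _ _ M P B _ _ _ blk α hα hindep hcover => covered E M P B blk α hα hindep hcover,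
    fun E _ _ M k hk hM => uniform E M k hk hM,
    fun E V _ _ _ src tgt M hM => graphic E V src tgt M hM,
    fun E _ _ F _ m c s M hs hM => sparse E F m c s M hs hM⟩

end Vale.Agent.Results.P331.PartitionPropertyAlmighty
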